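import Mathlib

/-!
P038 (helper788): base definitions for the proof of Seymour's second neighbourhood
conjecture.  `cl r S` is the closed out-neighbourhood `N[S]`, `cc r S = |N[S]| - |S|`.
-/

namespace Vale.P038.H788

open Finset

variable {V : Type} [Fintype V] [DecidableEq V]

/-- Closed out-neighbourhood of a set of vertices. -/
noncomputable def cl (r : V → V → Prop) (S : Finset V) : Finset V := by
  classical
  exact Finset.univ.filter (fun y => y ∈ S ∨ ∃ x ∈ S, r x y)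

theorem mem_cl {r : V → V → Prop} {S : Finset V} {y : V} :
    y ∈ cl r S ↔ (y ∈ S ∨ ∃ x ∈ S, r x y) := by
  classical
  simp [cl]

/-- Outer boundary `|N[S]| - |S|`. -/
noncomputable def cc (r : V → V → Prop) (S : Finset V) : ℤ :=
  ((cl r S).card : ℤ) - (S.card : ℤ)

/-- Energy of a family. -/
noncomputable def EE (r : V → V → Prop) (X : V → Finset V) : ℤ := ∑ a, cc r (X a)

/-- (I)-pairs. -/
structure IPair (r : V → V → Prop) (X Y : V → Finset V) : Prop where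
  hX : ∀ a, a ∈ X a
  hY : ∀ a, a ∈ Y a
  h : ∀ a b, a ≠ b → b ∈ cl r (X a) → a ∉ cl r (Y b)

/-- (II)-pairs. -/
structure JPair (r : V → V → Prop) (P Q : V → Finset V) : Prop where
  hP : ∀ a, cl r {a} ⊆ P a
  hQ : ∀ a, cl r {a} ⊆ Q a
  h : ∀ a b, a ≠ b → b ∈ P a → a ∉ Q b

theorem subset_cl (r : V → V → Prop) (S : Finset V) : S ⊆ cl r S := by
  intro x hx
  exact mem_cl.2 (Or.inl hx)

theorem cl_mono {r : V → V → Prop} {S T : Finset V} (h : S ⊆ T) : cl r S ⊆ cl r T := by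
  intro x hx
  rcases mem_cl.1 hx with h1 | ⟨y, hy, hr⟩
  · exact mem_cl.2 (Or.inl (h h1))
  · exact mem_cl.2 (Or.inr ⟨y, h hy, hr⟩)

theorem cl_union (r : V → V → Prop) (S T : Finset V) : cl r (S ∪ T) = cl r S ∪ cl r T := by
  ext x
  simp only [mem_cl, Finset.mem_union]
  constructor
  · rintro ((h | h) | ⟨y, (hy | hy), hr⟩)
    · exact Or.inl (Or.inl h)
    · exact Or.inr (Or.inl h)
    · exact Or.inl (Or.inr ⟨y, hy, hr⟩)
    · exact Or.inr (Or.inr ⟨y, hy, hr⟩)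
  · rintro ((h | ⟨y, hy, hr⟩) | (h | ⟨y, hy, hr⟩))
    · exact Or.inl (Or.inl h)
    · exact Or.inr ⟨y, Or.inl hy, hr⟩
    · exact Or.inl (Or.inr h)
    · exact Or.inr ⟨y, Or.inr hy, hr⟩

theorem cl_empty (r : V → V → Prop) : cl r ∅ = ∅ := by
  ext x
  simp [mem_cl]

/-- submodularity of the boundary. -/
theorem cc_submod (r : V → V → Prop) (S T : Finset V) :
    cc r (S ∩ T) + cc r (S ∪ T) ≤ cc r S + cc r T := by
  have h1 : (cl r (S ∩ T)).card ≤ (cl r S ∩ cl r T).card :=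
    Finset.card_le_card (Finset.subset_inter (cl_mono Finset.inter_subset_left)
      (cl_mono Finset.inter_subset_right))
  have h2 : (cl r S ∪ cl r T).card + (cl r S ∩ cl r T).card = (cl r S).card + (cl r T).card :=
    Finset.card_union_add_card_inter _ _
  have h3 : (S ∪ T).card + (S ∩ T).card = S.card + T.card :=
    Finset.card_union_add_card_inter _ _
  unfold cc
  rw [cl_union]
  omega

/-- BLOCK A: the canonical sets `Z(S0,S1)`. -/
def CanonStmt (r : V → V → Prop) : Prop :=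
  ∃ Z : Finset V → Finset V → Finset V,
    (∀ S0 S1, S0 ⊆ S1 → cl r S0 ⊆ Z S0 S1) ∧
    (∀ S0 S1, S0 ⊆ S1 → Z S0 S1 ⊆ cl r S1) ∧
    (∀ S0 S1, S0 ⊆ S1 → (∀ S, S0 ⊆ S → S ⊆ S1 → cc r S0 ≤ cc r S) →
      ((Z S0 S1).card : ℤ) = (S1.card : ℤ) + cc r S0) ∧
    (∀ S0 S1 S0' S1', S0 ⊆ S1 → S0' ⊆ S1' → S0 ⊆ S0' → S1 ⊆ S1' → Z S0 S1 ⊆ Z S0' S1')

/-- BLOCK B: (M12). -/
def M12Stmt (r : V → V → Prop) : Prop :=
  ∀ P Q : V → Finset V, JPair r P Q →
    (∀ a S, P a ⊆ S → (∀ x ∈ S, x ≠ a → a ∉ Q x) → cc r (P a) ≤ cc r S) →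
    ∃ X Y : V → Finset V, IPair r X Y ∧ EE r X + EE r Y ≤ EE r P + EE r Q

/-- BLOCK C: 294's theorem (G), unweighted, for an arc-minimal counterexample. -/
def GStmt (r : V → V → Prop) : Prop :=
  (∀ v, cc r (cl r {v}) < cc r {v}) →
  (∀ r' : V → V → Prop, (∀ u v, r' u v → r u v) → (∀ v, cc r' (cl r' {v}) < cc r' {v}) →
    ∀ u v, r u v → r' u v) →
  ∀ S, cl r S ≠ S → cc r (cl r S) < cc r S

end Vale.P038.H788
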